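import Vale.Agent.P363.KS.AxialAvg
import Vale.Agent.P363.KS.RegularitySpec
import Vale.Agent.P363.Top.CourantSym
import Vale.Agent.P363.Spec

/-!
P363: the isometries used for the sector decomposition, and symmetrisation of the exceptional set.
-/

noncomputable section

namespace Vale.Agent.P363.Ext

open MeasureTheory Filter Set Metric InnerProductSpace
open scoped BigOperators Topology ContDiff Real

/-- Reflection in the coordinate plane orthogonal to the axis `1`. -/
def reflY (x : Space) : Space := !₂[x 0, -x 1, x 2]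

@[simp] lemma reflY_zero (x : Space) : reflY x 0 = x 0 := by simp [reflY]
@[simp] lemma reflY_one (x : Space) : reflY x 1 = -x 1 := by simp [reflY]
@[simp] lemma reflY_two (x : Space) : reflY x 2 = x 2 := by simp [reflY]

lemma reflY_reflY (x : Space) : reflY (reflY x) = x := by
  ext i; fin_cases i <;> simp

lemma reflY_rot (α : ℝ) (x : Space) : reflY (rot α x) = rot (-α) (reflY x) := by
  ext i; fin_cases i <;> simp <;> ring

lemma reflY_mirror (x : Space) : reflY (mirror x) = mirror (reflY x) := by
  ext i; fin_cases i <;> simp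

/-- The same as an isometry. -/
def reflIso : Space ≃ₗᵢ[ℝ] Space where
  toFun := reflY
  invFun := reflY
  left_inv := reflY_reflY
  right_inv := reflY_reflY
  map_add' x y := by ext i; fin_cases i <;> simp; ring
  map_smul' c x := by ext i; fin_cases i <;> simp
  norm_map' x := by
    show ‖reflY x‖ = ‖x‖
    simp only [EuclideanSpace.norm_eq, Fin.sum_univ_three, Real.norm_eq_abs, sq_abs]
    simp

@[simp] lemma reflIso_apply (x : Space) : reflIso x = reflY x := rfl

lemma height_rot (α : ℝ) (x : Space) : height (rot α x) = height x := by simp [height]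

lemma height_reflY (x : Space) : height (reflY x) = height x := by simp [height]

lemma norm_rot (α : ℝ) (x : Space) : ‖rot α x‖ = ‖x‖ := by
  simpa [axMap] using (axIso false α).norm_map x

lemma axialSym_reflY {β : Type*} {f : Space → β} (hf : AxialSym f) (x : Space) :
    f (reflY x) = f x :=
  Top.eq_of_axialSym hf (reflIso.norm_map x) (by rw [height_reflY])

/-! ### The Laplacian and isometries -/

lemma lap_eq_laplacian {f : Space → ℝ} (hf : ContDiff ℝ 2 f) :
    lap f = Laplacian.laplacian f := by
  funext x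
  rw [laplacian_eq_iteratedFDeriv_orthonormalBasis f (EuclideanSpace.basisFun (Fin 3) ℝ)]
  refine Finset.sum_congr rfl fun a _ => ?_
  rw [iteratedFDeriv_two_apply]
  have h1 : DifferentiableAt ℝ (fderiv ℝ f) x :=
    ((hf.fderiv_right (m := 1) (by norm_num)).differentiable one_ne_zero x)
  have h2 := (h1.hasFDerivAt.clm_apply (hasFDerivAt_const (unit3 a) x)).fderiv
  show fderiv ℝ (fun y => fderiv ℝ f y (unit3 a)) x (unit3 a) = _
  rw [h2]
  simp [unit3]

lemma lap_comp_isometry {f : Space → ℝ} (hf : ContDiff ℝ 2 f) (T : Space ≃ₗᵢ[ℝ] Space) (x : Space) :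
    lap (fun y => f (T y)) x = lap f (T x) := by
  have hfT : ContDiff ℝ 2 fun y => f (T y) := hf.comp T.toContinuousLinearEquiv.contDiff
  rw [lap_eq_laplacian hf, lap_eq_laplacian hfT,
    laplacian_eq_iteratedFDeriv_orthonormalBasis (fun y => f (T y))
      ((EuclideanSpace.basisFun (Fin 3) ℝ).map T.symm),
    laplacian_eq_iteratedFDeriv_orthonormalBasis f (EuclideanSpace.basisFun (Fin 3) ℝ)]
  refine Finset.sum_congr rfl fun a _ => ?_
  show iteratedFDeriv ℝ 2 (f ∘ T.toContinuousLinearEquiv.toContinuousLinearMap) x _ = _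
  rw [ContinuousLinearMap.iteratedFDeriv_comp_right _ hf x le_rfl,
    ContinuousMultilinearMap.compContinuousLinearMap_apply]
  congr 1
  funext i
  fin_cases i <;> simp

lemma weakPoisson_comp {n ln : Space → ℝ} (h : WeakPoisson univ n ln) (T : Space ≃ₗᵢ[ℝ] Space) :
    WeakPoisson univ (fun x => n (T x)) fun x => ln (T x) := by
  have hcomp : ∀ {u : Space → ℝ}, LocallyIntegrableOn u univ →
      LocallyIntegrableOn (fun x => u (T x)) univ := fun {u} hu => by
    rw [locallyIntegrableOn_univ] at hu ⊢
    refine locallyIntegrable_iff.2 fun K hK => ?_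
    have h1 := hu.integrableOn_isCompact (hK.image T.continuous)
    rwa [← T.measurePreserving.integrableOn_comp_preimage T.toMeasurableEquiv.measurableEmbedding,
      preimage_image_eq _ T.injective] at h1
  refine ⟨hcomp h.1, hcomp h.2.1, fun η hη => ?_⟩
  have hη' : IsBump univ fun y => η (T.symm y) :=
    ⟨hη.smooth.comp T.symm.toContinuousLinearEquiv.contDiff,
      hη.compact.comp_homeomorph T.symm.toHomeomorph, subset_univ _⟩
  have e := h.2.2 _ hη'
  simp only [fun y => lap_comp_isometry (hη.contDiff 2) T.symm y] at e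
  have e1 := T.measurePreserving.integral_comp T.toMeasurableEquiv.measurableEmbedding
    fun y => n y * lap η (T.symm y)
  have e2 := T.measurePreserving.integral_comp T.toMeasurableEquiv.measurableEmbedding
    fun y => ln y * η (T.symm y)
  simp only [LinearIsometryEquiv.symm_apply_apply] at e1 e2
  rw [e1, e2]
  exact e

/-! ### The exceptional set -/

lemma rot_injOn {x : Space} (hx : ¬(x 0 = 0 ∧ x 1 = 0)) :
    InjOn (fun θ => rot θ x) (Icc 0 π) := fun a ha b hb e => by
  refine Real.injOn_cos ha hb ?_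
  have e0 : rot a x 0 = rot b x 0 := congrArg (fun w : Space => w 0) e
  have e1 : rot a x 1 = rot b x 1 := congrArg (fun w : Space => w 1) e
  simp only [rot_zero, rot_one] at e0 e1
  have hρ : x 0 ^ 2 + x 1 ^ 2 ≠ 0 := fun h =>
    hx ⟨by nlinarith [sq_nonneg (x 1)], by nlinarith [sq_nonneg (x 0)]⟩
  refine mul_right_cancel₀ hρ ?_
  linear_combination x 0 * e0 + x 1 * e1

lemma exists_rot_notMem (P : Finset Space) {x : Space} (hx : ¬(x 0 = 0 ∧ x 1 = 0)) :
    ∃ θ, rot θ x ∉ P := by
  by_contra! hall
  refine Set.Icc_infinite Real.pi_pos (Set.Finite.of_finite_image ?_ (rot_injOn hx))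
  exact P.finite_toSet.subset (by rintro _ ⟨θ, -, rfl⟩; exact hall θ)

/-- The points of the exceptional set on the axis and their mirror images. -/
def axisPts (P : Finset Space) : Finset Space := by
  classical
  exact P.filter (fun p => p 0 = 0 ∧ p 1 = 0) ∪
    (P.filter fun p => p 0 = 0 ∧ p 1 = 0).image mirror

lemma axisPts_axis {P : Finset Space} {p : Space} (hp : p ∈ axisPts P) :
    p 0 = 0 ∧ p 1 = 0 := by
  classical
  simp only [axisPts, Finset.mem_union, Finset.mem_filter, Finset.mem_image] at hp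
  rcases hp with hp | ⟨q, hq, rfl⟩
  · exact hp.2
  · simpa using hq.2

lemma mem_axisPts {P : Finset Space} {p : Space} (hp : p ∈ P) (h : p 0 = 0 ∧ p 1 = 0) :
    p ∈ axisPts P := by
  classical
  simp only [axisPts, Finset.mem_union, Finset.mem_filter]
  exact Or.inl ⟨hp, h⟩

lemma axisPts_mirror {P : Finset Space} {p : Space} (hp : p ∈ axisPts P) :
    mirror p ∈ axisPts P := by
  classical
  simp only [axisPts, Finset.mem_union, Finset.mem_filter, Finset.mem_image] at hp ⊢
  rcases hp with hp | ⟨q, hq, rfl⟩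
  · exact Or.inr ⟨p, hp, rfl⟩
  · exact Or.inl (by rwa [mirror_mirror'])

/-- A density with axial symmetry is regular off the axis points. -/
lemma densityReg_axis {n : Space → ℝ} {a k R₀ c C : ℝ} {gn : Fin 3 → Space → ℝ} {ln : Space → ℝ}
    (h : NodalData n a k R₀ c C gn ln) : ∃ P : Finset Space, DensityReg (axisPts P) n ln := by
  obtain ⟨P, hP⟩ := h.regular
  refine ⟨P, h.continuous, h.positive, h.poisson, fun K hK _ => ?_, fun K hK hKP => ?_⟩
  · obtain ⟨R, hR⟩ := hK.isBounded.subset_ball 0
    exact (h.lap_memLp R).mono_measure (Measure.restrict_mono hR le_rfl)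
  have hrot : ∀ θ, (fun x => ln (rot θ x)) =ᵐ[volume] ln := fun θ => by
    have e := weakPoisson_comp h.poisson (axIso false θ)
    simp only [axIso_apply, axMap, Bool.false_eq_true, if_false, h.axial.1] at e
    simpa using e.unique isOpen_univ h.poisson
  refine hK.induction_on (p := fun s => ∃ B : ℝ, ∀ᵐ x : Space, x ∈ s → |ln x| ≤ B)
    ⟨0, .of_forall fun x hx => hx.elim⟩
    (fun s t hst ⟨B, hB⟩ => ⟨B, hB.mono fun x hx hs => hx (hst hs)⟩)
    (fun s t ⟨B, hB⟩ ⟨B', hB'⟩ => ⟨max B B', ?_⟩) fun x hx => ?_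
  · filter_upwards [hB, hB'] with x h1 h2 hx
    exact hx.elim (fun hs => (h1 hs).trans (le_max_left _ _))
      fun ht => (h2 ht).trans (le_max_right _ _)
  have hxP : x ∉ axisPts P := fun hh => hKP hx hh
  obtain ⟨θ, hθ⟩ : ∃ θ, rot θ x ∉ P := by
    by_cases hax : x 0 = 0 ∧ x 1 = 0
    · exact ⟨0, fun hh => hxP (mem_axisPts (by rwa [rot_zero_angle] at hh) hax)⟩
    · exact exists_rot_notMem P hax
  obtain ⟨ε, hε, hball⟩ := Metric.nhds_basis_closedBall.mem_iff.1
    (P.finite_toSet.isClosed.isOpen_compl.mem_nhds hθ)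
  obtain ⟨B, hB⟩ := hP _ (isCompact_closedBall (rot θ x) ε)
    (Set.disjoint_left.2 fun z hz hzP => hball hz hzP)
  refine ⟨closedBall x ε, mem_nhdsWithin_of_mem_nhds (closedBall_mem_nhds x hε), B, ?_⟩
  filter_upwards [(axIso false θ).measurePreserving.quasiMeasurePreserving.ae hB, hrot θ]
    with z hz hz' hzx
  simp only [axIso_apply, axMap, Bool.false_eq_true, if_false] at hz
  rw [← hz']
  refine hz ?_
  rw [mem_closedBall, dist_eq_norm] at hzx ⊢
  calc ‖rot θ z - rot θ x‖ = ‖axIso false θ (z - x)‖ := by rw [map_sub]; simp [axMap]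
    _ ≤ ε := by rw [LinearIsometryEquiv.norm_map]; exact hzx

end Vale.Agent.P363.Ext
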