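import Vale.Agent.P363.Ext.Sectors.Profiles

/-!
P363: no profile alternates in sign on four parabolas (Courant's bound and planar crossing).
-/

noncomputable section

namespace Vale.Agent.P363.Ext

open MeasureTheory Filter Set Vale.Agent.P363.Top
open scoped BigOperators Topology Real

variable {P : Finset Space} {v φ₀ u w f : Space → ℝ} {e₀ μ : ℝ} {s' : Fin 4 → ℝ}

/-- Alternation on four ordered curves in a region that nodal domains do not leave. -/
theorem no_alternation_in (hw : Eig P v φ₀ e₀ μ w) {D : Set Space}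
    (hD : ∀ a b (γ : Path a b), a ∈ D → (∀ t, w (γ t) ≠ 0) → ∀ t, γ t ∈ D)
    (hf : ∀ x ∈ D, ∀ y ∈ D, ‖x‖ = ‖y‖ → |height x| = |height y| → f x = f y)
    (hsign : ∀ x ∈ D, (0 < f x ↔ 0 < w x) ∧ (f x < 0 ↔ w x < 0))
    {x₀ : ℝ} {h : Fin 4 → ℝ → ℝ} {γ : Fin 4 → ℝ → Space}
    (hc : ∀ i, ContinuousOn (h i) (Ici x₀))
    (hlt : ∀ t ≥ x₀, h 0 t < h 1 t ∧ h 1 t < h 2 t ∧ h 2 t < h 3 t)
    (hγ : ∀ i, ∀ t ≥ x₀, γ i t ∈ D ∧ ‖γ i t‖ = t ∧ |height (γ i t)| = h i t)
    (hsgn : ∀ t ≥ x₀, 0 < f (γ 0 t) ∧ f (γ 1 t) < 0 ∧ 0 < f (γ 2 t) ∧ f (γ 3 t) < 0) :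
    False := by
  obtain ⟨F, hF⟩ := hw
  have hcp := not_joinedIn_sign (Φ := fun x : Space => (‖x‖, |height x|))
    (continuous_norm.prodMk continuous_height.abs) (f := f) (D := D)
    (fun x hx y hy e => hf x hx y hy (congrArg Prod.fst e) (congrArg Prod.snd e)) (γ := γ) hc hlt
    (fun i t ht => ⟨(hγ i t ht).1, Prod.ext (hγ i t ht).2.1 (hγ i t ht).2.2⟩) hsgn
  obtain ⟨h0, h1, h2, h3⟩ := hsgn x₀ le_rfl
  have hd : ∀ i, γ i x₀ ∈ D := fun i => (hγ i x₀ le_rfl).1
  replace h0 := ((hsign _ (hd 0)).1).1 h0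
  replace h1 := ((hsign _ (hd 1)).2).1 h1
  replace h2 := ((hsign _ (hd 2)).1).1 h2
  replace h3 := ((hsign _ (hd 3)).2).1 h3
  have hsep : ∀ a b, 0 < w a → w b < 0 → ¬ JoinedIn {z | w z ≠ 0} a b := fun a b ha hb hj =>
    (pos_of_joinedIn hF.cont hj ha).not_gt hb
  have e : {z : Space | -w z ≠ 0} = {z | w z ≠ 0} := by simp
  by_cases hj : JoinedIn {z | w z ≠ 0} (γ 0 x₀) (γ 2 x₀)
  · have hj' : ¬ JoinedIn {z | w z ≠ 0} (γ 1 x₀) (γ 3 x₀) := fun hn => by
      obtain ⟨p, hp⟩ := joinedIn_pos hF.cont hj h0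
      obtain ⟨q, hq⟩ := joinedIn_pos (φ := fun z => -w z) hF.cont.neg (e ▸ hn) (neg_pos.2 h1)
      exact hcp ⟨⟨p, fun t => ⟨hD _ _ p (hd 0) (fun t => ne_of_gt (hp t)) t,
          ((hsign _ (hD _ _ p (hd 0) (fun t => ne_of_gt (hp t)) t)).1).2 (hp t)⟩⟩,
        ⟨q, fun t => ⟨hD _ _ q (hd 1) (fun t => (neg_pos.1 (hq t)).ne) t,
          ((hsign _ (hD _ _ q (hd 1) (fun t => (neg_pos.1 (hq t)).ne) t)).2).2
            (neg_pos.1 (hq t))⟩⟩⟩
    refine courantBound P v φ₀ e₀ μ w F hF ![γ 1 x₀, γ 3 x₀, γ 0 x₀] (fun i => ?_) fun i j hij => ?_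
    · fin_cases i <;> simp [h1.ne, h3.ne, h0.ne']
    · fin_cases i <;> fin_cases j <;> first
        | exact absurd rfl hij
        | exact hj'
        | exact fun hn => hj' hn.symm
        | exact hsep _ _ h0 h1
        | exact fun hn => hsep _ _ h0 h1 hn.symm
        | exact hsep _ _ h0 h3
        | exact fun hn => hsep _ _ h0 h3 hn.symm
  · refine courantBound P v φ₀ e₀ μ w F hF ![γ 0 x₀, γ 2 x₀, γ 1 x₀] (fun i => ?_) fun i j hij => ?_
    · fin_cases i <;> simp [h0.ne', h2.ne', h1.ne]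
    · fin_cases i <;> fin_cases j <;> first
        | exact absurd rfl hij
        | exact hj
        | exact fun hn => hj hn.symm
        | exact hsep _ _ h0 h1
        | exact fun hn => hsep _ _ h0 h1 hn.symm
        | exact hsep _ _ h2 h1
        | exact fun hn => hsep _ _ h2 h1 hn.symm

/-- The reduction of `Alternates` to ordered curves. -/
lemma not_alternates_of (hw : Eig P v φ₀ e₀ μ w) {D : Set Space}
    (hD : ∀ a b (γ : Path a b), a ∈ D → (∀ t, w (γ t) ≠ 0) → ∀ t, γ t ∈ D)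
    (hpt : ∀ r θ, 0 < r → 0 ≤ θ → θ < 1 → pt r θ ∈ D)
    (hf : ∀ x ∈ D, ∀ y ∈ D, ‖x‖ = ‖y‖ → |height x| = |height y| → f x = f y)
    (hsign : ∀ x ∈ D, (0 < f x ↔ 0 < w x) ∧ (f x < 0 ↔ w x < 0))
    (σ : ℝ) (s : Fin 4 → ℝ) (hs : StrictMono s) (h0 : 0 ≤ s 0) : ¬ Alternates f σ s := by
  intro ha
  obtain ⟨r₀, hr₀⟩ := eventually_atTop.1 ha
  have hs0 : ∀ i, 0 ≤ s i := fun i => h0.trans (hs.monotone (Fin.zero_le i))
  have hs3 : ∀ i, s i ≤ s 3 := fun i => hs.monotone (Fin.le_last i)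
  set x₀ := max r₀ (s 3 ^ 2 + 1) with hx₀
  have key : ∀ i, ∀ t ≥ x₀, 0 < t ∧ 0 ≤ s i / √t ∧ s i / √t < 1 ∧ t * (s i / √t) = s i * √t := by
    intro i t ht
    have h1 : s 3 ^ 2 + 1 ≤ t := (le_max_right _ _).trans ht
    have ht0 : 0 < t := by nlinarith
    have hq : 0 < √t := Real.sqrt_pos.2 ht0
    refine ⟨ht0, div_nonneg (hs0 i) hq.le, ?_, ?_⟩
    · rw [div_lt_one hq]
      exact lt_of_le_of_lt (hs3 i) (Real.lt_sqrt_of_sq_lt (by linarith))
    · field_simp
      rw [Real.sq_sqrt ht0.le]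
      ring
  have hσ : σ ≠ 0 := fun e => by
    have := hr₀ x₀ (le_max_left _ _) 0
    simp [e] at this
  have hγ : ∀ i, ∀ t ≥ x₀, pt t (s i / √t) ∈ D ∧ ‖pt t (s i / √t)‖ = t ∧
      |height (pt t (s i / √t))| = s i * √t := by
    intro i t ht
    obtain ⟨ht0, hθ0, hθ1, e⟩ := key i t ht
    refine ⟨hpt _ _ ht0 hθ0 hθ1, ?_, ?_⟩
    · rw [← sq_eq_sq₀ (norm_nonneg _) ht0.le, EuclideanSpace.norm_sq_eq]
      simp [pt, Fin.sum_univ_three, mul_pow, Real.sq_sqrt (show (0 : ℝ) ≤ 1 - (s i / √t) ^ 2 by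
        nlinarith)]
      ring
    · simp only [height, pt]
      simp only [Matrix.cons_val]
      rw [e, abs_of_nonneg (mul_nonneg (hs0 i) (Real.sqrt_nonneg _))]
  refine no_alternation_in (hw.const_mul σ) (D := D) (fun a b γ ha hne => hD a b γ ha fun t e =>
      hne t (by simp [e])) (f := fun x => σ * f x) (fun x hx y hy e1 e2 => by rw [hf x hx y hy e1 e2])
    (fun x hx => ?_) (h := fun i t => s i * √t) (x₀ := x₀) (fun i => by fun_prop)
    (fun t ht => ?_) hγ fun t ht => ?_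
  · obtain ⟨hp, hn⟩ := hsign x hx
    rcases lt_or_gt_of_ne hσ with hl | hl
    · simp only [mul_pos_iff, mul_neg_iff, hl, not_lt.2 hl.le, false_and, true_and, false_or]
      exact ⟨hn, hp⟩
    · simp only [mul_pos_iff, mul_neg_iff, hl, not_lt.2 hl.le, false_and, true_and, or_false]
      exact ⟨hp, hn⟩
  · have hq : 0 < √t := Real.sqrt_pos.2 (key 0 t ht).1
    exact ⟨mul_lt_mul_of_pos_right (hs (by decide)) hq, mul_lt_mul_of_pos_right (hs (by decide)) hq,
      mul_lt_mul_of_pos_right (hs (by decide)) hq⟩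
  · have hh := hr₀ t ((le_max_left _ _).trans ht)
    have a0 := hh 0
    have a1 := hh 1
    have a2 := hh 2
    have a3 := hh 3
    norm_num at a0 a1 a2 a3
    exact ⟨a0, a1, a2, a3⟩

/-- Alternation is not affected by a factor. -/
lemma not_alternates_const_mul (h : ∀ σ, ¬ Alternates f σ s') (c σ : ℝ) :
    ¬ Alternates (fun x => c * f x) σ s' := fun ha =>
  h (σ * c) <| ha.mono fun r hr i => by have := hr i; nlinarith

/-- The rotation invariant part of an even state does not alternate. -/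
theorem not_alternates_part0 (hu : Eig P v φ₀ e₀ μ u) (L : SymLevel P v φ₀ e₀ μ)
    (he : ∀ x, u (mirror x) = u x) (σ : ℝ) (s : Fin 4 → ℝ) (hs : StrictMono s) (h0 : 0 ≤ s 0) :
    ¬ Alternates (part0 u) σ s :=
  not_alternates_of (hu.part0_eig L) (D := univ) (fun _ _ _ _ _ _ => mem_univ _)
    (fun _ _ _ _ _ => mem_univ _)
    (fun _ _ _ _ h1 h2 => Top.eq_of_axialSym
      (f := part0 u) ⟨part0_rot hu L, part0_mirror he⟩ h1 h2)
    (fun _ _ => ⟨Iff.rfl, Iff.rfl⟩) σ s hs h0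

/-- The cosine mode is the profile times the cosine. -/
lemma cosine_eq (hu : Eig P v φ₀ e₀ μ u) (L : SymLevel P v φ₀ e₀ μ) {x : Space}
    (hx : x ∈ offAxis) :
    (part1 u x + part1 u (reflY x)) / 2 = angC x * profile u x := by
  obtain ⟨q, α, hq, rfl⟩ := Eig.exists_rot_meridian x
  have hq1 : q 1 = 0 := by
    have := congrArg (fun w : Space => w 1) hq
    simp only [reflY_one] at this
    linarith
  have hx' : q ∈ offAxis := by
    have := axDist_rot α q
    have h' := axDist_pos hx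
    rw [this] at h'
    exact Real.sqrt_pos.1 h'
  have hr := (axDist_pos hx').ne'
  have e := axDist_sq hx'
  rw [hq1] at e
  rw [profile_rot hu L, reflY_rot, hq, part1_quarter hu L α q, part1_quarter hu L (-α) q,
    Real.cos_neg, Real.sin_neg]
  simp only [profile, angC, angS, axDist_rot, rot_zero, hq1]
  field_simp
  linear_combination (2 * Real.cos α * part1 u q) * e

/-- The profile of an even state does not alternate. -/
theorem not_alternates_profile (hu : Eig P v φ₀ e₀ μ u) (L : SymLevel P v φ₀ e₀ μ)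
    (he : ∀ x, u (mirror x) = u x) (σ : ℝ) (s : Fin 4 → ℝ) (hs : StrictMono s) (h0 : 0 ≤ s 0) :
    ¬ Alternates (profile u) σ s := by
  have hsub : {x : Space | 0 < x 0} ⊆ offAxis := fun x (hx : 0 < x 0) =>
    (by positivity : (0 : ℝ) < x 0 ^ 2 + x 1 ^ 2)
  have hp := hu.part1_eig L
  refine not_alternates_of (((hp.add (hp.comp_reflY L)).const_mul (1 / 2))) (D := {x | 0 < x 0})
    (fun a b γ ha hne t => ?_) (fun r θ hr h1 h2 => ?_)
    (fun x _ y _ h1 h2 => Top.eq_of_axialSym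
      (f := profile u) ⟨profile_rot hu L, profile_mirror he⟩ h1 h2)
    (fun x hx => ?_) σ s hs h0
  · by_contra hle
    obtain ⟨z, hz⟩ : (0 : ℝ) ∈ range fun τ => γ τ 0 :=
      mem_range_of_exists_le_of_exists_ge (by fun_prop) ⟨t, not_lt.1 hle⟩
        ⟨0, by simpa using le_of_lt ha⟩
    refine hne z ?_
    have e : reflY (γ z) = rot π (γ z) := by
      ext i; fin_cases i <;> simp_all
    rw [e, part1_quarter hu L π]
    simp
  · show 0 < r * √(1 - θ ^ 2)
    exact mul_pos hr (Real.sqrt_pos.2 (by nlinarith))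
  · have hC : 0 < angC x := div_pos hx (axDist_pos (hsub hx))
    have e := cosine_eq hu L (hsub hx)
    have e' : 1 / 2 * (part1 u x + part1 u (reflY x)) = angC x * profile u x := by linarith
    simp only [e', mul_pos_iff, mul_neg_iff, hC, not_lt.2 hC.le, false_and, true_and, or_false,
      and_self]

end Vale.Agent.P363.Ext
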