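import Vale.Agent.P363.Ext.Sectors.Profiles

/-!
P363: the density of the orbitals off the axis, and the odd orbitals as multiples of one of them.
-/

noncomputable section

namespace Vale.Agent.P363.Ext

open MeasureTheory Filter Set Metric Vale.Agent.P363.Top
open scoped BigOperators Topology ENNReal NNReal

variable {P : Finset Space} {v φ₀ : Space → ℝ} {e₀ μ : ℝ} {f : ℕ → Space → ℝ} {n ln : Space → ℝ}

lemma _root_.Vale.Agent.P363.RegularShells.sum_le (R : RegularShells P v φ₀ e₀ μ f n ln) (x : Space) (s : Finset ℕ) :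
    ∑ j ∈ s, f j x ^ 2 ≤ n x - 2 * φ₀ x ^ 2 := by linarith [R.density_le x s]

lemma _root_.Vale.Agent.P363.RegularShells.summable_sq (R : RegularShells P v φ₀ e₀ μ f n ln) (x : Space) :
    Summable fun j => f j x ^ 2 :=
  summable_of_sum_le (fun j => sq_nonneg _) (R.sum_le x)

lemma abs_fderiv_apply_le (S : Space → ℝ) (x : Space) {B : ℝ} (hB : ∀ a, |deriv3 a S x| ≤ B) :
    ‖fderiv ℝ S x‖ ≤ 3 * B := by
  have hB0 : 0 ≤ B := (abs_nonneg _).trans (hB 0)
  refine ContinuousLinearMap.opNorm_le_bound _ (by positivity) fun h => ?_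
  have e : h = ∑ a, h a • unit3 a := by
    ext i; simp [unit3, Fin.sum_univ_three]; fin_cases i <;> simp
  have e' : fderiv ℝ S x h = ∑ a, h a * deriv3 a S x := by
    conv_lhs => rw [e]
    simp [deriv3]
  rw [e', Real.norm_eq_abs]
  refine (Finset.abs_sum_le_sum_abs _ _).trans ?_
  calc ∑ a, |h a * deriv3 a S x| ≤ ∑ _a : Fin 3, ‖h‖ * B := Finset.sum_le_sum fun a _ => by
        rw [abs_mul]
        exact mul_le_mul (by simpa using PiLp.norm_apply_le h a) (hB a) (abs_nonneg _)
          (norm_nonneg _)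
    _ = 3 * B * ‖h‖ := by simp; ring

/-- The orbitals sum up to the density off the exceptional set. -/
theorem _root_.Vale.Agent.P363.RegularShells.hasSum_sq (R : RegularShells P v φ₀ e₀ μ f n ln) (hn : Continuous n)
    {x : Space} (hx : x ∉ P) : HasSum (fun j => f j x ^ 2) (n x - 2 * φ₀ x ^ 2) := by
  obtain ⟨r, hr, hball⟩ := Metric.nhds_basis_closedBall.mem_iff.1
    (P.finite_toSet.isClosed.isOpen_compl.mem_nhds (show x ∈ (↑P : Set Space)ᶜ from hx))
  obtain ⟨C, hC⟩ := R.grad_bdd _ (isCompact_closedBall x r) hball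
  obtain ⟨Cn, hCn⟩ := (isCompact_closedBall x r).exists_bound_of_continuousOn hn.continuousOn
  set S : Finset ℕ → Space → ℝ := fun s y => ∑ j ∈ s, f j y ^ 2
  set T : Space → ℝ := fun y => ∑' j, f j y ^ 2 with hT
  have hdiff : ∀ s, ∀ y ∈ ball x r, DifferentiableAt ℝ (S s) y ∧
      ∀ a, |deriv3 a (S s) y| ≤ Cn + C := fun s y hy => by
    have hyP := hball (ball_subset_closedBall hy)
    have hd : ∀ j, DifferentiableAt ℝ (f j) y := fun j =>
      ((R.c1 j).differentiableOn one_ne_zero).differentiableAt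
        (P.finite_toSet.isClosed.isOpen_compl.mem_nhds hyP)
    have hh := HasFDerivAt.fun_sum (u := s) fun j _ => (hd j).hasFDerivAt.pow 2
    refine ⟨hh.differentiableAt, fun a => ?_⟩
    rw [deriv3, hh.fderiv]
    simp only [FunLike.coe_sum, Finset.sum_apply, FunLike.coe_smul,
      Pi.smul_apply, smul_eq_mul, nsmul_eq_mul, Nat.cast_ofNat, show (2 : ℕ) - 1 = 1 from rfl,
      pow_one]
    refine (Finset.abs_sum_le_sum_abs _ _).trans ?_
    calc _ ≤ ∑ j ∈ s, (f j y ^ 2 + deriv3 a (f j) y ^ 2) := Finset.sum_le_sum fun j _ => by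
          rw [show fderiv ℝ (f j) y (unit3 a) = deriv3 a (f j) y from rfl, abs_le]
          constructor <;> nlinarith [sq_nonneg (f j y - deriv3 a (f j) y),
            sq_nonneg (f j y + deriv3 a (f j) y)]
      _ ≤ _ := by
        rw [Finset.sum_add_distrib]
        have h1 := hCn y (ball_subset_closedBall hy)
        have h2 := hC y (ball_subset_closedBall hy) a s
        rw [Real.norm_eq_abs] at h1
        nlinarith [R.sum_le y s, le_abs_self (n y), sq_nonneg (φ₀ y),
          sq_nonneg (deriv3 a φ₀ y)]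
  have hlip : LipschitzOnWith (3 * (Cn + C)).toNNReal T (ball x r) := by
    refine LipschitzOnWith.of_dist_le_mul fun y hy z hz => ?_
    refine le_of_tendsto (((R.summable_sq y).hasSum).dist ((R.summable_sq z).hasSum) : Tendsto
      (fun s => dist (S s y) (S s z)) _ _) (.of_forall fun s => ?_)
    rw [dist_eq_norm, dist_eq_norm]
    refine ((convex_ball x r).norm_image_sub_le_of_norm_fderiv_le (fun w hw => (hdiff s w hw).1)
      (fun w hw => abs_fderiv_apply_le _ _ (hdiff s w hw).2) hz hy).trans ?_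
    exact mul_le_mul_of_nonneg_right (Real.le_coe_toNNReal _) (norm_nonneg _)
  have hae : (fun y => n y - 2 * φ₀ y ^ 2) =ᵐ[volume] T := by
    filter_upwards [R.shells.density_eq] with y hy
    have h2 : (2 : ℝ≥0∞) = ENNReal.ofReal 2 := by simp
    rw [← ENNReal.ofReal_tsum_of_nonneg (fun j => sq_nonneg _) (R.summable_sq y), h2,
      ← ENNReal.ofReal_mul zero_le_two,
      ← ENNReal.ofReal_add (by positivity) (tsum_nonneg fun j => sq_nonneg _)] at hy
    have hn0 : 0 ≤ n y := le_trans (by positivity) (R.density_le y ∅)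
    have := (ENNReal.ofReal_eq_ofReal_iff hn0
      (add_nonneg (by positivity) (tsum_nonneg fun j => sq_nonneg _))).1 hy
    simp only [hT]; linarith
  have := Measure.eqOn_open_of_ae_eq (ae_restrict_of_ae hae) isOpen_ball
    ((hn.continuousOn).sub ((R.cont₀.continuousOn.pow 2).const_smul (2 : ℝ))) hlip.continuousOn
    (mem_ball_self hr)
  simp only at this
  rw [this]
  exact (R.summable_sq x).hasSum

/-- The part odd under the mirror. -/
def oddPart (u : Space → ℝ) (x : Space) : ℝ := (u x - u (mirror x)) / 2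

/-- The part even under the mirror. -/
def evenPart (u : Space → ℝ) (x : Space) : ℝ := (u x + u (mirror x)) / 2

lemma evenPart_mirror (u : Space → ℝ) (x : Space) : evenPart u (mirror x) = evenPart u x := by
  simp [evenPart, mirror_mirror', add_comm]

lemma oddPart_mirror (u : Space → ℝ) (x : Space) : oddPart u (mirror x) = -oddPart u x := by
  simp [oddPart, mirror_mirror']; ring

variable {u : Space → ℝ}

lemma Eig.oddPart_eig (hu : Eig P v φ₀ e₀ μ u) (L : SymLevel P v φ₀ e₀ μ) :
    Eig P v φ₀ e₀ μ (oddPart u) :=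
  ((hu.sub (hu.comp_mirror L)).const_mul (1 / 2)).congr fun x => by simp only [oddPart]; ring

lemma Eig.evenPart_eig (hu : Eig P v φ₀ e₀ μ u) (L : SymLevel P v φ₀ e₀ μ) :
    Eig P v φ₀ e₀ μ (evenPart u) :=
  ((hu.add (hu.comp_mirror L)).const_mul (1 / 2)).congr fun x => by simp only [evenPart]; ring

/-- The odd parts of the orbitals add up to the square of one odd, axially symmetric orbital. -/
theorem exists_oddOrbital (L : SymLevel P v φ₀ e₀ μ) (hf : ∀ j, Eig P v φ₀ e₀ μ (f j))
    (hbdd : ∀ x, ∃ B, ∀ s : Finset ℕ, ∑ j ∈ s, f j x ^ 2 ≤ B) :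
    ∃ φu, Eig P v φ₀ e₀ μ φu ∧ (∀ θ x, φu (rot θ x) = φu x) ∧
      (∀ x, φu (mirror x) = -φu x) ∧ (∀ x, 0 ≤ height x → 0 ≤ φu x) ∧
      ∀ x, HasSum (fun j => oddPart (f j) x ^ 2) (φu x ^ 2) := by
  by_cases hzero : ∀ j x, oddPart (f j) x = 0
  · refine ⟨fun _ => 0, ((hf 0).const_mul 0).congr fun x => by simp, fun θ x => rfl,
      fun x => by simp, fun x _ => le_rfl, fun x => ?_⟩
    simp only [hzero]
    simpa using hasSum_zero
  push Not at hzero
  obtain ⟨j₀, x₁, hx₁⟩ := hzero
  obtain ⟨F₀, hF₀⟩ := (hf j₀).oddPart_eig L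
  rcases hF₀.odd_sign (oddPart_mirror _) with hz | ⟨σ, hσ, hnn, hpos⟩
  · exact absurd (hz x₁) hx₁
  set U : Space → ℝ := fun x => σ * oddPart (f j₀) x with hU
  have hUE : Eig P v φ₀ e₀ μ U := ((hf j₀).oddPart_eig L).const_mul σ
  have hUodd : ∀ x, U (mirror x) = -U x := fun x => by simp [hU, oddPart_mirror]
  have hσ0 : σ ≠ 0 := by rcases hσ with rfl | rfl <;> norm_num
  have hUne : ∃ x, U x ≠ 0 := ⟨x₁, mul_ne_zero hσ0 hx₁⟩
  have hmul : ∀ {w}, Eig P v φ₀ e₀ μ w → (∀ x, w (mirror x) = -w x) →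
      ∃ c, ∀ x, w x = c * U x := fun {w} ⟨G, hG⟩ hwo => by
    obtain ⟨FU, hFU⟩ := hUE
    exact hG.odd_unique hFU hwo hUodd hUne
  obtain ⟨z, hz, hzP⟩ : ∃ z : ℝ, 0 < z ∧ z • unit3 2 ∉ P := by
    by_contra! h
    refine (Set.Ioi_infinite (0 : ℝ)) (Set.Finite.of_finite_image
      (P.finite_toSet.subset (by rintro _ ⟨z, hz, rfl⟩; exact h z hz)) fun a _ b _ e => ?_)
    simpa [unit3] using congrArg (fun w : Space => w 2) e
  set x₀ : Space := z • unit3 2 with hx₀
  have hh : 0 < height x₀ := by simpa [hx₀, height, unit3] using hz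
  have hU0 : 0 < U x₀ := hpos x₀ ⟨hh, hzP⟩
  have hrot : ∀ θ x, U (rot θ x) = U x := fun θ => by
    obtain ⟨c, hc⟩ := hmul (hUE.comp_rot L θ) fun x => by rw [← mirror_rot, hUodd]
    have e : rot θ x₀ = x₀ := by
      ext i; fin_cases i <;> simp [hx₀, unit3]
    have h1 := hc x₀
    rw [e] at h1
    have hc1 : c = 1 := by nlinarith
    intro x
    rw [hc x, hc1, one_mul]
  choose c hc using fun j => hmul ((hf j).oddPart_eig L) (oddPart_mirror _)
  have hsum : Summable fun j => c j ^ 2 := by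
    obtain ⟨B, hB⟩ := hbdd x₀
    obtain ⟨B', hB'⟩ := hbdd (mirror x₀)
    refine summable_of_sum_le (c := (B + B') / 2 / U x₀ ^ 2) (fun j => sq_nonneg _) fun s => ?_
    rw [le_div_iff₀ (by positivity), Finset.sum_mul]
    calc ∑ j ∈ s, c j ^ 2 * U x₀ ^ 2 ≤ ∑ j ∈ s, (f j x₀ ^ 2 + f j (mirror x₀) ^ 2) / 2 :=
          Finset.sum_le_sum fun j _ => by
            rw [← mul_pow, ← hc j x₀]
            simp only [oddPart]
            nlinarith [sq_nonneg (f j x₀ + f j (mirror x₀))]
      _ ≤ _ := by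
        rw [← Finset.sum_div, Finset.sum_add_distrib]
        linarith [hB s, hB' s]
  set A := √(∑' j, c j ^ 2)
  refine ⟨fun x => A * U x, hUE.const_mul A, fun θ x => by simp [hrot],
    fun x => by simp [hUodd], fun x hx => mul_nonneg (Real.sqrt_nonneg _) ?_, fun x => ?_⟩
  · rcases hx.lt_or_eq with hx | hx
    · exact hnn x hx
    · have := hUodd x
      rw [mirror_of_height_zero hx.symm] at this
      linarith
  · simp only [hc, mul_pow, A, Real.sq_sqrt (tsum_nonneg fun j => sq_nonneg (c j))]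
    exact hsum.hasSum.mul_right _

end Vale.Agent.P363.Ext
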