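import Mathlib

/-!
P363: a continuous periodic function whose averages over the `m` equally spaced shifts are constant
for every `m ≥ 2` has no Fourier modes but the lowest ones.
-/

noncomputable section

namespace Vale.Agent.P363.Ext

open MeasureTheory Complex Function
open scoped BigOperators Real

theorem fourierCoeff_eq_zero {f : ℝ → ℂ} (hc : Continuous f) (hp : Periodic f 1)
    {m : ℕ} {n : ℤ} (hm : 2 ≤ m) (hn : n.natAbs = m)
    (h : ∀ s, (∑ k ∈ Finset.range m, f (s + k / m)) = ∑ k ∈ Finset.range m, f (k / m)) :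
    fourierCoeff (hp.lift : UnitAddCircle → ℂ) n = 0 := by
  set e : ℝ → ℂ := fun x => fourier (-n) (x : UnitAddCircle) with he_def
  have hec : Continuous e := by
    exact (map_continuous (fourier (-n))).comp (AddCircle.continuous_mk' 1)
  have hep : Periodic e 1 := fun x => by simp only [he_def, AddCircle.coe_add_period]
  have he : ∀ x (k : ℕ), e (x + k / m) = e x := by
    intro x k
    simp only [he_def, fourier_coe_apply]
    rw [Complex.exp_eq_exp_iff_exists_int]
    have hm0 : (m : ℂ) ≠ 0 := by exact_mod_cast (by omega : m ≠ 0)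
    rcases n.natAbs_eq with h1 | h1 <;> rw [hn] at h1
    · refine ⟨-(k : ℤ), ?_⟩
      rw [h1]; push_cast; field_simp; ring
    · refine ⟨(k : ℤ), ?_⟩
      rw [h1]; push_cast; field_simp
  rw [fourierCoeff_eq_intervalIntegral _ n 0]
  simp only [Periodic.lift_coe, div_one, one_smul, zero_add, smul_eq_mul]
  show ∫ x in (0 : ℝ)..1, e x * f x = 0
  set I := ∫ x in (0 : ℝ)..1, e x * f x
  have hk : ∀ k : ℕ, ∫ x in (0 : ℝ)..1, e x * f (x + k / m) = I := fun k => by
    calc ∫ x in (0 : ℝ)..1, e x * f (x + k / m)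
        = ∫ x in (0 : ℝ)..1, (fun y => e y * f y) (x + k / m) := by simp only [he]
      _ = ∫ x in (k / m : ℝ)..(k / m + 1), e x * f x := by
          rw [intervalIntegral.integral_comp_add_right (fun y => e y * f y), zero_add, add_comm (1 : ℝ)]
      _ = I := by
          have := (hep.mul hp).intervalIntegral_add_eq (k / m : ℝ) 0
          simp only [Pi.mul_apply, zero_add] at this
          exact this
  have hsum : (m : ℂ) * I = (∫ x in (0 : ℝ)..1, e x) * ∑ k ∈ Finset.range m, f (k / m) := by
    have h1 : ∫ x in (0 : ℝ)..1, ∑ k ∈ Finset.range m, e x * f (x + k / m) =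
        ∑ k ∈ Finset.range m, ∫ x in (0 : ℝ)..1, e x * f (x + k / m) :=
      intervalIntegral.integral_finsetSum fun k _ =>
        (hec.mul (hc.comp (continuous_add_const _))).intervalIntegrable 0 1
    simp only [← Finset.mul_sum, h, hk, Finset.sum_const, Finset.card_range, nsmul_eq_mul] at h1
    rw [intervalIntegral.integral_mul_const] at h1
    exact h1.symm
  have he0 : ∫ x in (0 : ℝ)..1, e x = 0 := by
    have h2 := fourierCoeff_eq_intervalIntegral (T := (1 : ℝ))
      (fun _ : UnitAddCircle => (1 : ℂ)) n 0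
    have h3 : fourierCoeff (fun _ : UnitAddCircle => (1 : ℂ)) n = 0 := by
      have := congrFun (fourierCoeff_fourier (T := (1 : ℝ)) 0) n
      rw [Pi.single_eq_of_ne (by omega : n ≠ 0)] at this
      rw [← this]
      congr 1
      funext x
      exact fourier_zero.symm
    simpa [h3, he_def] using h2.symm
  rw [he0, zero_mul, mul_eq_zero] at hsum
  exact hsum.resolve_left (by exact_mod_cast (by omega : m ≠ 0))

/-- The lowest modes. -/
theorem exists_lowest_modes {g : ℝ → ℝ} (hc : Continuous g) (hp : Periodic g 1)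
    (h : ∀ m : ℕ, 2 ≤ m → ∀ s,
      (∑ k ∈ Finset.range m, g (s + k / m)) = ∑ k ∈ Finset.range m, g (k / m)) :
    ∃ A B C : ℝ, ∀ s, g s = A + B * Real.cos (2 * π * s) + C * Real.sin (2 * π * s) := by
  set f : ℝ → ℂ := fun s => (g s : ℂ) with hf_def
  have hfc : Continuous f := Complex.continuous_ofReal.comp hc
  have hfp : Periodic f 1 := fun s => by simp [hf_def, hp s]
  let F : C(UnitAddCircle, ℂ) :=
    ⟨hfp.lift, (QuotientAddGroup.isQuotientMap_mk _).continuous_iff.2 hfc⟩
  have h0 : ∀ n : ℤ, n ∉ ({-1, 0, 1} : Finset ℤ) → fourierCoeff F n = 0 := fun n hn => by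
    simp only [Finset.mem_insert, Finset.mem_singleton, not_or] at hn
    refine fourierCoeff_eq_zero hfc hfp (m := n.natAbs) (by omega) rfl fun s => ?_
    simp only [hf_def, ← Complex.ofReal_sum, h n.natAbs (by omega)]
  set c := fourierCoeff F with hc_def
  refine ⟨(c 0).re, (c 1).re + (c (-1)).re, (c (-1)).im - (c 1).im, fun s => ?_⟩
  have hs := has_pointwise_sum_fourier_series_of_summable
    (summable_of_ne_finset_zero (s := ({-1, 0, 1} : Finset ℤ)) h0) (s : UnitAddCircle)
  have h1 : HasSum (fun i => fourierCoeff F i • fourier i (s : UnitAddCircle))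
      (∑ i ∈ ({-1, 0, 1} : Finset ℤ), fourierCoeff F i • fourier i (s : UnitAddCircle)) :=
    hasSum_sum_of_ne_finset_zero fun i hi => by rw [← hc_def, h0 i hi, zero_smul]
  have e := congrArg Complex.re (hs.unique h1)
  have hF : F (s : UnitAddCircle) = (g s : ℂ) := rfl
  have hre : ∀ n : ℤ, fourier n (s : UnitAddCircle) =
      Complex.exp (((2 * π * n * s : ℝ) : ℂ) * I) := fun n => by
    rw [fourier_coe_apply]; push_cast; ring_nf
  rw [hF, Complex.ofReal_re, Finset.sum_insert (by decide), Finset.sum_insert (by decide),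
    Finset.sum_singleton] at e
  simp only [hre, smul_eq_mul, Complex.add_re, Complex.mul_re, Complex.exp_ofReal_mul_I_re,
    Complex.exp_ofReal_mul_I_im, ← hc_def] at e
  simp only [Int.cast_neg, Int.cast_one, Int.cast_zero, mul_neg, neg_mul, mul_one, mul_zero,
    zero_mul, Real.cos_neg, Real.sin_neg, Real.cos_zero, Real.sin_zero] at e
  linarith

end Vale.Agent.P363.Ext
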