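import Vale.Agent.P363.Ext.Sectors.States
import Vale.Agent.P363.Ext.Setup

/-!
P363: the axially symmetric profiles of a state and their equations off the axis.
-/

noncomputable section

namespace Vale.Agent.P363.Ext

open MeasureTheory Filter Set Vale.Agent.P363.Top
open scoped BigOperators Topology Real ContDiff

variable {P : Finset Space} {v φ₀ u : Space → ℝ} {e₀ μ : ℝ}

/-- The complement of the axis. -/
def offAxis : Set Space := {x | 0 < x 0 ^ 2 + x 1 ^ 2}

/-- The distance to the axis. -/
def axDist (x : Space) : ℝ := √(x 0 ^ 2 + x 1 ^ 2)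

/-- The rotation invariant part. -/
def part0 (u : Space → ℝ) (x : Space) : ℝ := (u x + u (rot π x)) / 2

/-- The part changing sign under the half turn. -/
def part1 (u : Space → ℝ) (x : Space) : ℝ := (u x - u (rot π x)) / 2

/-- The cosine of the angle. -/
def angC (x : Space) : ℝ := x 0 / axDist x

/-- The sine of the angle. -/
def angS (x : Space) : ℝ := x 1 / axDist x

/-- The profile of the cosine mode. -/
def profile (u : Space → ℝ) (x : Space) : ℝ :=
  angC x * part1 u x - angS x * part1 u (rot (π / 2) x)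

lemma axDist_rot (θ : ℝ) (x : Space) : axDist (rot θ x) = axDist x := by
  simp only [axDist, rot_zero, rot_one]
  congr 1
  linear_combination (x 0 ^ 2 + x 1 ^ 2) * Real.sin_sq_add_cos_sq θ

lemma axDist_pos {x : Space} (hx : x ∈ offAxis) : 0 < axDist x := Real.sqrt_pos.2 hx

lemma axDist_sq {x : Space} (hx : x ∈ offAxis) : axDist x ^ 2 = x 0 ^ 2 + x 1 ^ 2 :=
  Real.sq_sqrt hx.le

lemma isOpen_offAxis : IsOpen offAxis := isOpen_lt continuous_const (by fun_prop)

lemma notMem_of_offAxis (L : SymLevel P v φ₀ e₀ μ) {x : Space} (hx : x ∈ offAxis) : x ∉ P :=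
  fun h => by
    obtain ⟨h0, h1⟩ := L.axis x h
    simp only [offAxis, Set.mem_ofPred_eq, h0, h1] at hx
    norm_num at hx

lemma part1_quarter (hu : Eig P v φ₀ e₀ μ u) (L : SymLevel P v φ₀ e₀ μ) (θ : ℝ) (x : Space) :
    part1 u (rot θ x) = Real.cos θ * part1 u x + Real.sin θ * part1 u (rot (π / 2) x) := by
  have h0 := hu.orbit L θ x
  have h1 := hu.orbit L (π + θ) x
  have h2 := hu.orbit L (π + π / 2) x
  simp only [part1, rot_rot]
  rw [h0, h1, h2]
  simp only [Real.cos_add, Real.sin_add, Real.cos_pi, Real.sin_pi, Real.cos_pi_div_two,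
    Real.sin_pi_div_two]
  ring

lemma part0_rot (hu : Eig P v φ₀ e₀ μ u) (L : SymLevel P v φ₀ e₀ μ) (θ : ℝ) (x : Space) :
    part0 u (rot θ x) = part0 u x := by
  have h0 := hu.orbit L θ x
  have h1 := hu.orbit L (π + θ) x
  simp only [part0, rot_rot]
  rw [h0, h1]
  simp only [Real.cos_add, Real.sin_add, Real.cos_pi, Real.sin_pi]
  ring

lemma Eig.part0_eig (hu : Eig P v φ₀ e₀ μ u) (L : SymLevel P v φ₀ e₀ μ) :
    Eig P v φ₀ e₀ μ (part0 u) :=
  ((hu.add (hu.comp_rot L π)).const_mul (1 / 2)).congr fun x => by simp only [part0]; ring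

lemma Eig.part1_eig (hu : Eig P v φ₀ e₀ μ u) (L : SymLevel P v φ₀ e₀ μ) :
    Eig P v φ₀ e₀ μ (part1 u) :=
  ((hu.sub (hu.comp_rot L π)).const_mul (1 / 2)).congr fun x => by simp only [part1]; ring

lemma part0_mirror (he : ∀ x, u (mirror x) = u x) (x : Space) :
    part0 u (mirror x) = part0 u x := by
  simp only [part0, ← mirror_rot, he]

lemma profile_rot (hu : Eig P v φ₀ e₀ μ u) (L : SymLevel P v φ₀ e₀ μ) (θ : ℝ) (x : Space) :
    profile u (rot θ x) = profile u x := by
  simp only [profile, angC, angS, axDist_rot, rot_zero, rot_one, rot_rot,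
    part1_quarter hu L θ x, part1_quarter hu L (π / 2 + θ) x, Real.cos_add, Real.sin_add,
    Real.cos_pi_div_two, Real.sin_pi_div_two]
  linear_combination ((x 0 * part1 u x - x 1 * part1 u (rot (π / 2) x)) / axDist x) *
    Real.sin_sq_add_cos_sq θ

lemma profile_mirror (he : ∀ x, u (mirror x) = u x) (x : Space) :
    profile u (mirror x) = profile u x := by
  simp only [profile, angC, angS, axDist, mirror_zero, mirror_one, part1, ← mirror_rot, he]

lemma quarter_profile_sq (hu : Eig P v φ₀ e₀ μ u) (L : SymLevel P v φ₀ e₀ μ) {x : Space}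
    (hx : x ∈ offAxis) :
    profile u x ^ 2 + profile (fun y => u (rot (π / 2) y)) x ^ 2 =
      part1 u x ^ 2 + part1 u (rot (π / 2) x) ^ 2 := by
  have e : ∀ z, part1 (fun y => u (rot (π / 2) y)) z = part1 u (rot (π / 2) z) := fun z => by
    simp only [part1, rot_rot, add_comm]
  have h2 : part1 u (rot (π / 2 + π / 2) x) = -part1 u x := by
    rw [part1_quarter hu L]; simp [add_halves]
  have hc : angC x ^ 2 + angS x ^ 2 = 1 := by
    rw [angC, angS, div_pow, div_pow, ← add_div, axDist_sq hx, div_self (ne_of_gt hx)]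
  simp only [profile, e, rot_rot, h2]
  linear_combination (part1 u x ^ 2 + part1 u (rot (π / 2) x) ^ 2) * hc

/-- The mean of the square over four rotations splits into the profiles. -/
lemma mean_sq_eq (hu : Eig P v φ₀ e₀ μ u) (L : SymLevel P v φ₀ e₀ μ) {x : Space}
    (hx : x ∈ offAxis) :
    (u x ^ 2 + u (rot (π / 2) x) ^ 2 + u (rot π x) ^ 2 + u (rot (π + π / 2) x) ^ 2) / 4 =
      part0 u x ^ 2 + (profile u x ^ 2 + profile (fun y => u (rot (π / 2) y)) x ^ 2) / 2 := by
  rw [quarter_profile_sq hu L hx]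
  have h2 := hu.orbit L (π / 2) x
  have h3 := hu.orbit L (π + π / 2) x
  simp only [part0, part1, rot_rot] at *
  rw [h3]
  simp only [Real.cos_add, Real.sin_add, Real.cos_pi, Real.sin_pi, Real.cos_pi_div_two,
    Real.sin_pi_div_two]
  ring

/-! ### Calculus -/

lemma contDiffOn_axDist : ContDiffOn ℝ ∞ axDist offAxis := by
  unfold axDist
  exact ContDiffOn.sqrt (by fun_prop) fun x hx => ne_of_gt hx

lemma contDiffOn_angC : ContDiffOn ℝ ∞ angC offAxis := by
  unfold angC
  exact ContDiffOn.div (by fun_prop) contDiffOn_axDist fun x hx => (axDist_pos hx).ne'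

lemma contDiffOn_angS : ContDiffOn ℝ ∞ angS offAxis := by
  unfold angS
  exact ContDiffOn.div (by fun_prop) contDiffOn_axDist fun x hx => (axDist_pos hx).ne'

lemma hasFDerivAt_coord (i : Fin 3) (x : Space) :
    HasFDerivAt (fun y : Space => y i) (EuclideanSpace.proj (𝕜 := ℝ) i) x :=
  (EuclideanSpace.proj (𝕜 := ℝ) i).hasFDerivAt

lemma hasFDerivAt_axDist {x : Space} (hx : x ∈ offAxis) :
    HasFDerivAt axDist ((axDist x)⁻¹ •
      (x 0 • EuclideanSpace.proj (𝕜 := ℝ) (0 : Fin 3) + x 1 • EuclideanSpace.proj (𝕜 := ℝ) (1 : Fin 3)))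
      x := by
  have h := (((hasFDerivAt_coord 0 x).pow 2).add ((hasFDerivAt_coord 1 x).pow 2)).sqrt (ne_of_gt hx)
  refine h.congr_fderiv ?_
  ext z
  simp [axDist]
  ring

/-- The derivative of a coordinate over a power of the distance to the axis. -/
lemma deriv3_coord_div (i : Fin 3) (a : Fin 3) {x : Space} (hx : x ∈ offAxis) (k : ℕ) :
    deriv3 a (fun y => y i / axDist y ^ k) x =
      unit3 a i / axDist x ^ k -
        k * x i * (x 0 * unit3 a 0 + x 1 * unit3 a 1) / axDist x ^ (k + 2) := by
  have hr := (axDist_pos hx).ne'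
  have h := (hasFDerivAt_coord i x).fun_mul
    ((hasDerivAt_inv (pow_ne_zero k hr)).comp_hasFDerivAt x ((hasFDerivAt_axDist hx).pow k))
  have e : (fun y : Space => y i / axDist y ^ k) =
      (fun y : Space => y i * (axDist y ^ k)⁻¹) := funext fun y => div_eq_mul_inv _ _
  simp only [Function.comp_def] at h
  rw [deriv3, e, h.fderiv]
  rcases k with _ | k
  · simp
  · simp
    field_simp
    ring

lemma deriv3_angC (a : Fin 3) {x : Space} (hx : x ∈ offAxis) :
    deriv3 a angC x = (x 1 ^ 2 * unit3 a 0 - x 0 * x 1 * unit3 a 1) / axDist x ^ 3 := by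
  have h := deriv3_coord_div 0 a hx 1
  simp only [pow_one] at h
  rw [show angC = fun y => y 0 / axDist y from rfl, h]
  have hr := (axDist_pos hx).ne'
  field_simp
  linear_combination (axDist x ^ 3 * unit3 a 0) * axDist_sq hx

lemma deriv3_angS (a : Fin 3) {x : Space} (hx : x ∈ offAxis) :
    deriv3 a angS x = (x 0 ^ 2 * unit3 a 1 - x 0 * x 1 * unit3 a 0) / axDist x ^ 3 := by
  have h := deriv3_coord_div 1 a hx 1
  simp only [pow_one] at h
  rw [show angS = fun y => y 1 / axDist y from rfl, h]
  have hr := (axDist_pos hx).ne'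
  field_simp
  linear_combination (axDist x ^ 3 * unit3 a 1) * axDist_sq hx

lemma unit3_apply (a i : Fin 3) : unit3 a i = if i = a then 1 else 0 := by
  simp [unit3, eq_comm]

/-- A coordinate times a coordinate over the cube of the distance to the axis. -/
def pair (i j : Fin 3) (y : Space) : ℝ := y i * (y j / axDist y ^ 3)

lemma differentiableAt_pair (i j : Fin 3) {x : Space} (hx : x ∈ offAxis) :
    DifferentiableAt ℝ (pair i j) x :=
  (hasFDerivAt_coord i x).differentiableAt.fun_mul
    ((hasFDerivAt_coord j x).differentiableAt.fun_mul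
      ((((hasFDerivAt_axDist hx).differentiableAt).fun_pow 3).inv
        (pow_ne_zero 3 (axDist_pos hx).ne')) |>.congr_of_eventuallyEq
          (.of_forall fun y => div_eq_mul_inv _ _))

lemma deriv3_pair (i j a : Fin 3) {x : Space} (hx : x ∈ offAxis) :
    deriv3 a (pair i j) x = unit3 a i * (x j / axDist x ^ 3) + x i *
      (unit3 a j / axDist x ^ 3 -
        3 * x j * (x 0 * unit3 a 0 + x 1 * unit3 a 1) / axDist x ^ 5) := by
  have hd : DifferentiableAt ℝ (fun y : Space => y j / axDist y ^ 3) x :=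
    (((hasFDerivAt_coord j x).differentiableAt.fun_mul
      ((((hasFDerivAt_axDist hx).differentiableAt).fun_pow 3).inv
        (pow_ne_zero 3 (axDist_pos hx).ne')))).congr_of_eventuallyEq
          (.of_forall fun y => div_eq_mul_inv _ _)
  show deriv3 a (fun y => y i * (y j / axDist y ^ 3)) x = _
  rw [deriv3_mul (hasFDerivAt_coord i x).differentiableAt hd, deriv3_coord_div j a hx 3]
  rw [deriv3, (hasFDerivAt_coord i x).fderiv]
  simp

/-- The Laplacian of a function whose gradient is made of pairs. -/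
lemma lap_of_pairs {F : Space → ℝ} {i i' j k l m : Fin 3} {x : Space} (hx : x ∈ offAxis)
    (hF : ∀ a, ∀ y ∈ offAxis, deriv3 a F y = unit3 a i * pair j k y - unit3 a i' * pair l m y) :
    lap F x = ∑ a, (unit3 a i * deriv3 a (pair j k) x - unit3 a i' * deriv3 a (pair l m) x) := by
  refine Finset.sum_congr rfl fun a _ => ?_
  have e : deriv3 a F =ᶠ[𝓝 x] fun y => unit3 a i * pair j k y - unit3 a i' * pair l m y :=
    Filter.eventually_of_mem (isOpen_offAxis.mem_nhds hx) fun y hy => hF a y hy
  show fderiv ℝ (deriv3 a F) x (unit3 a) = _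
  rw [e.fderiv_eq, fderiv_fun_sub ((differentiableAt_pair j k hx).const_mul _)
    ((differentiableAt_pair l m hx).const_mul _), fderiv_const_mul (differentiableAt_pair j k hx),
    fderiv_const_mul (differentiableAt_pair l m hx)]
  simp [deriv3]

lemma lap_angC {x : Space} (hx : x ∈ offAxis) : lap angC x = -angC x / axDist x ^ 2 := by
  rw [lap_of_pairs (i := 0) (i' := 1) (j := 1) (k := 1) (l := 1) (m := 0) hx fun a y hy => by
    rw [deriv3_angC a hy]; simp only [pair]; ring]
  have hr := (axDist_pos hx).ne'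
  simp only [Fin.sum_univ_three, deriv3_pair _ _ _ hx, unit3_apply, angC]
  simp
  field_simp
  ring

lemma lap_angS {x : Space} (hx : x ∈ offAxis) : lap angS x = -angS x / axDist x ^ 2 := by
  rw [lap_of_pairs (i := 1) (i' := 0) (j := 0) (k := 0) (l := 0) (m := 1) hx fun a y hy => by
    rw [deriv3_angS a hy]; simp only [pair]; ring]
  have hr := (axDist_pos hx).ne'
  simp only [Fin.sum_univ_three, deriv3_pair _ _ _ hx, unit3_apply, angS]
  simp
  field_simp
  ring

/-! ### States off the axis -/

lemma Eig.contDiffOn_offAxis (hu : Eig P v φ₀ e₀ μ u) (L : SymLevel P v φ₀ e₀ μ) :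
    ContDiffOn ℝ 1 u offAxis := by
  obtain ⟨F, hF⟩ := hu
  exact hF.c1.mono fun x hx => notMem_of_offAxis L hx

lemma Eig.weakPoisson (hu : Eig P v φ₀ e₀ μ u) :
    WeakPoisson univ u fun x => 2 * (v x - μ) * u x := by
  obtain ⟨F, hF⟩ := hu
  exact hF.eigen.weakPoisson hF.level hF.cont

lemma hasDerivAt_rot (x : Space) :
    HasDerivAt (fun θ => rot θ x) ((-x 1) • unit3 0 + x 0 • unit3 1) 0 := by
  have e : (fun θ => rot θ x) = fun θ => Real.cos θ • (x 0 • unit3 0 + x 1 • unit3 1) +
      Real.sin θ • ((-x 1) • unit3 0 + x 0 • unit3 1) + x 2 • unit3 2 := by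
    funext θ
    ext i
    fin_cases i <;> simp [unit3] <;> ring
  rw [e]
  simpa using (((Real.hasDerivAt_cos 0).smul_const (x 0 • unit3 0 + x 1 • unit3 1)).add
    ((Real.hasDerivAt_sin 0).smul_const ((-x 1) • unit3 0 + x 0 • unit3 1))).add_const
      (x 2 • unit3 2)

/-- The derivative along the orbit of the part changing sign under the half turn. -/
lemma deriv_part1 (hu : Eig P v φ₀ e₀ μ u) (L : SymLevel P v φ₀ e₀ μ) {x : Space}
    (hx : x ∈ offAxis) :
    x 0 * deriv3 1 (part1 u) x - x 1 * deriv3 0 (part1 u) x = part1 u (rot (π / 2) x) := by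
  have hd : DifferentiableAt ℝ (part1 u) x :=
    ((((hu.part1_eig L).contDiffOn_offAxis L).differentiableOn one_ne_zero).differentiableAt
      (isOpen_offAxis.mem_nhds hx))
  have h1 := hd.hasFDerivAt.comp_hasDerivAt_of_eq 0 (hasDerivAt_rot x) (rot_zero_angle x).symm
  have h2 : HasDerivAt (fun θ => part1 u (rot θ x)) (part1 u (rot (π / 2) x)) 0 := by
    rw [funext fun θ => part1_quarter hu L θ x]
    simpa using ((Real.hasDerivAt_cos 0).mul_const (part1 u x)).fun_add
      ((Real.hasDerivAt_sin 0).mul_const (part1 u (rot (π / 2) x)))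
  have := h1.unique h2
  simp only [map_add, map_smul, smul_eq_mul] at this
  simp only [deriv3] at *
  linarith

lemma contDiffOn_profile (hu : Eig P v φ₀ e₀ μ u) (L : SymLevel P v φ₀ e₀ μ) :
    ContDiffOn ℝ 1 (profile u) offAxis := by
  unfold profile
  exact ((contDiffOn_angC.of_le (by simp)).mul ((hu.part1_eig L).contDiffOn_offAxis L)).sub
    ((contDiffOn_angS.of_le (by simp)).mul
      (((hu.part1_eig L).comp_rot L (π / 2)).contDiffOn_offAxis L))

/-- The equation of the profile, with the centrifugal term. -/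
theorem weakPoisson_profile (hu : Eig P v φ₀ e₀ μ u) (L : SymLevel P v φ₀ e₀ μ) :
    WeakPoisson offAxis (profile u) fun x =>
      2 * (v x - μ + centrifugal (1 / 2) x) * profile u x := by
  have hp := hu.part1_eig L
  have hq := hp.comp_rot L (π / 2)
  have key : ∀ {f : Space → ℝ} {θ : Space → ℝ}, Eig P v φ₀ e₀ μ f → ContDiffOn ℝ ∞ θ offAxis →
      WeakPoisson offAxis (fun x => θ x * f x) fun x =>
        θ x * (2 * (v x - μ) * f x) + 2 * (∑ a, deriv3 a θ x * deriv3 a f x) + lap θ x * f x :=
    fun {f θ} hf hθ => (hf.weakPoisson.mono (subset_univ _)).mul_smooth isOpen_offAxis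
      (HasWeakGrad.of_contDiffOn isOpen_offAxis (hf.contDiffOn_offAxis L)) hθ
  refine ((key hp contDiffOn_angC).sub (key hq contDiffOn_angS)).congr_ae isOpen_offAxis
    (.of_forall fun x => rfl) ?_
  filter_upwards [ae_restrict_mem isOpen_offAxis.measurableSet] with x hx
  have d1 := deriv_part1 hu L hx
  have d2 := deriv_part1 (hu.comp_rot L (π / 2)) L hx
  have e : part1 (fun y => u (rot (π / 2) y)) = fun z => part1 u (rot (π / 2) z) := funext fun z => by
    simp only [part1, rot_rot, add_comm]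
  have h2 : part1 u (rot (π / 2) (rot (π / 2) x)) = -part1 u x := by
    rw [rot_rot, part1_quarter hu L]; simp [add_halves]
  rw [e] at d2
  simp only [h2] at d2
  have hr := (axDist_pos hx).ne'
  simp only [profile, centrifugal, ← axDist_sq hx, lap_angC hx, lap_angS hx, Fin.sum_univ_three,
    deriv3_angC _ hx, deriv3_angS _ hx, unit3_apply, angC, angS]
  simp
  field_simp
  linear_combination (-2 * x 1) * d1 + (-2 * x 0) * d2

end Vale.Agent.P363.Ext
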