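import Vale.Agent.P363.Ext.Sectors.Iso
import Vale.Agent.P363.Ext.Sectors.Circle

/-!
P363: states of the second level in an axially symmetric potential have rotation modes `|m| ≤ 1`.
-/

noncomputable section

namespace Vale.Agent.P363.Ext

open MeasureTheory Filter Set Vale.Agent.P363.Top
open scoped BigOperators Topology Real

variable {P : Finset Space} {v φ₀ u w : Space → ℝ} {e₀ μ : ℝ}

/-- The setting of the sector decomposition. -/
structure SymLevel (P : Finset Space) (v φ₀ : Space → ℝ) (e₀ μ : ℝ) : Prop where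
  level : SecondLevel v φ₀ e₀ μ
  upper : LocalUpper P v
  axis : ∀ p ∈ P, p 0 = 0 ∧ p 1 = 0
  mir : ∀ p ∈ P, mirror p ∈ P
  axial : AxialSym v
  move : ∀ T : Space ≃ₗᵢ[ℝ] Space, (∀ x, v (T x) = v x) →
    ∀ g G, IsFormEigen v μ g G → ∃ G', IsFormEigen v μ (fun x => g (T x)) G'

/-- A regular state of the second level. -/
def Eig (P : Finset Space) (v φ₀ : Space → ℝ) (e₀ μ : ℝ) (u : Space → ℝ) : Prop :=
  ∃ F, SecondState P v φ₀ e₀ μ u F

namespace Eig

lemma addMul (hu : Eig P v φ₀ e₀ μ u) (hw : Eig P v φ₀ e₀ μ w) (c : ℝ) :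
    Eig P v φ₀ e₀ μ fun x => u x + c * w x := by
  obtain ⟨F, hF⟩ := hu
  obtain ⟨G, hG⟩ := hw
  exact ⟨_, hF.add_mul hG c⟩

lemma congr (hu : Eig P v φ₀ e₀ μ u) (h : ∀ x, u x = w x) : Eig P v φ₀ e₀ μ w := by
  rwa [← funext h]

lemma const_mul (hu : Eig P v φ₀ e₀ μ u) (c : ℝ) : Eig P v φ₀ e₀ μ fun x => c * u x :=
  (hu.addMul hu (c - 1)).congr fun x => by ring

lemma add (hu : Eig P v φ₀ e₀ μ u) (hw : Eig P v φ₀ e₀ μ w) :
    Eig P v φ₀ e₀ μ fun x => u x + w x :=
  (hu.addMul hw 1).congr fun x => by ring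

lemma sub (hu : Eig P v φ₀ e₀ μ u) (hw : Eig P v φ₀ e₀ μ w) :
    Eig P v φ₀ e₀ μ fun x => u x - w x :=
  (hu.addMul hw (-1)).congr fun x => by ring

lemma sum (hu : Eig P v φ₀ e₀ μ u) {ι : Type*} (s : Finset ι) {g : ι → Space → ℝ}
    (hg : ∀ i ∈ s, Eig P v φ₀ e₀ μ (g i)) : Eig P v φ₀ e₀ μ fun x => ∑ i ∈ s, g i x := by
  classical
  induction s using Finset.induction with
  | empty => exact (hu.const_mul 0).congr fun x => by simp
  | @insert j t hj ih =>
    simp only [Finset.sum_insert hj]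
    exact (hg j (Finset.mem_insert_self j t)).add
      (ih fun i hi => hg i (Finset.mem_insert_of_mem hi))

lemma comp (hu : Eig P v φ₀ e₀ μ u) (L : SymLevel P v φ₀ e₀ μ) (T : Space ≃ₗᵢ[ℝ] Space)
    (hv : ∀ x, v (T x) = v x) (hT : ∀ x, T x ∈ P → x ∈ P) :
    Eig P v φ₀ e₀ μ fun x => u (T x) := by
  obtain ⟨F, hF⟩ := hu
  obtain ⟨G, hG⟩ := L.move T hv u F hF.eigen
  refine ⟨G, hF.level, hF.upper, hG, hF.cont.comp T.continuous, ?_⟩
  exact hF.c1.comp T.toContinuousLinearEquiv.contDiff.contDiffOn fun x hx hp => hx (hT x hp)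

lemma comp_rot (hu : Eig P v φ₀ e₀ μ u) (L : SymLevel P v φ₀ e₀ μ) (θ : ℝ) :
    Eig P v φ₀ e₀ μ fun x => u (rot θ x) := by
  refine (hu.comp L (axIso false θ) (fun x => by simp [axMap, L.axial.1]) fun x hx => ?_).congr
    fun x => by simp [axMap]
  simp only [axIso_apply, axMap, Bool.false_eq_true, if_false] at hx
  obtain ⟨h0, h1⟩ := L.axis _ hx
  have e : rot (-θ) (rot θ x) = rot θ x := by
    ext i; fin_cases i <;> simp_all
  rw [rot_rot, neg_add_cancel, rot_zero_angle] at e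
  rwa [e]

lemma comp_reflY (hu : Eig P v φ₀ e₀ μ u) (L : SymLevel P v φ₀ e₀ μ) :
    Eig P v φ₀ e₀ μ fun x => u (reflY x) := by
  refine (hu.comp L reflIso (fun x => axialSym_reflY L.axial x) fun x hx => ?_).congr fun x => rfl
  simp only [reflIso_apply] at hx
  obtain ⟨h0, h1⟩ := L.axis _ hx
  have e : reflY (reflY x) = reflY x := by
    ext i; fin_cases i <;> simp_all
  rw [reflY_reflY] at e
  rwa [e]

lemma comp_mirror (hu : Eig P v φ₀ e₀ μ u) (L : SymLevel P v φ₀ e₀ μ) :
    Eig P v φ₀ e₀ μ fun x => u (mirror x) := by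
  refine (hu.comp L (axIso true 0) (fun x => by simp [axMap, rot_zero_angle, L.axial.2])
    fun x hx => ?_).congr fun x => by simp [axMap, rot_zero_angle]
  simp only [axIso_apply, axMap, if_true, rot_zero_angle] at hx
  simpa [mirror_mirror'] using L.mir _ hx

lemma continuous (hu : Eig P v φ₀ e₀ μ u) : Continuous u := by
  obtain ⟨F, hF⟩ := hu
  exact hF.cont

/-- Antisymmetrisation over the dihedral group of order `2 m` gives zero when `m ≥ 2`. -/
theorem dihedral_zero (hu : Eig P v φ₀ e₀ μ u) (L : SymLevel P v φ₀ e₀ μ) {m : ℕ} (hm : 2 ≤ m)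
    (y : Space) :
    (∑ k ∈ Finset.range m, u (rot (2 * π * (k / m)) y)) =
      ∑ k ∈ Finset.range m, u (rot (2 * π * (k / m)) (reflY y)) := by
  set S : Space → ℝ := fun z => ∑ k ∈ Finset.range m, u (rot (2 * π * (k / m)) z) with hS
  set w : Space → ℝ := fun z => S z - S (reflY z) with hw
  have hSE : Eig P v φ₀ e₀ μ S := hu.sum _ fun k _ => hu.comp_rot L _
  obtain ⟨F, hF⟩ : Eig P v φ₀ e₀ μ w := hSE.sub (hSE.comp_reflY L)
  by_contra hne
  have hy : w y ≠ 0 := sub_ne_zero.2 hne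
  clear hne
  have hm0 : (0 : ℝ) < m := by exact_mod_cast (by omega : 0 < m)
  have hm2 : (2 : ℝ) ≤ m := by exact_mod_cast hm
  set d := 2 * π / m with hd
  have hSd : ∀ z, S (rot d z) = S z := fun z => by
    have e : ∀ k : ℕ, u (rot (2 * π * (k / m)) (rot d z)) = u (rot (2 * π * (((k + 1 : ℕ) : ℝ) / m)) z) :=
      fun k => by
        rw [rot_rot]; congr 2; rw [hd]; push_cast; field_simp
    simp only [hS, e]
    have h1 := Finset.sum_range_succ' (fun k : ℕ => u (rot (2 * π * ((k : ℝ) / m)) z)) m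
    rw [Finset.sum_range_succ] at h1
    have h2 : u (rot (2 * π * ((m : ℝ) / m)) z) = u (rot (2 * π * ((0 : ℕ) / (m : ℝ))) z) := by
      rw [div_self hm0.ne', mul_one, Nat.cast_zero, zero_div, mul_zero]
      simpa using congrArg u (rot_two_pi 0 z)
    linarith
  have hSd' : ∀ z, S (rot (-d) z) = S z := fun z => by
    rw [← hSd (rot (-d) z), rot_rot, add_neg_cancel, rot_zero_angle]
  have hwd : ∀ (j : ℤ) z, w (rot (j * d) z) = w z := fun j => by
    have hp : ∀ (j : ℤ) z, S (rot (j * d) z) = S z := fun j => by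
      induction j using Int.induction_on with
      | zero => intro z; simp [rot_zero_angle]
      | succ i ih => intro z; push_cast at ih ⊢; rw [add_mul, one_mul, ← rot_rot, ih, hSd]
      | pred i ih => intro z; push_cast at ih ⊢; rw [sub_mul, one_mul, sub_eq_add_neg, ← rot_rot, ih, hSd']
    intro z
    simp only [hw, reflY_rot, hp]
    rw [show -((j : ℝ) * d) = ((-j : ℤ) : ℝ) * d by push_cast; ring, hp]
  have hrefl : ∀ z, w (reflY z) = -w z := fun z => by simp [hw, reflY_reflY]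
  have hplane : ∀ (j : ℤ) z, rot (j * d) (reflY z) = z → w z = 0 := fun j z hz => by
    have := hwd j (reflY z)
    rw [hz, hrefl] at this
    linarith
  -- polar angle
  have hρ : ¬(y 0 = 0 ∧ y 1 = 0) := fun h => hy <| hplane 0 y <| by
    ext i; fin_cases i <;> simp [h.1, h.2, rot_zero_angle]
  set c : ℂ := ⟨y 0, y 1⟩ with hc
  have hc0 : c ≠ 0 := fun e => hρ ⟨congrArg Complex.re e, congrArg Complex.im e⟩
  set ρ := ‖c‖
  set α := Complex.arg c
  have hρ0 : 0 < ρ := norm_pos_iff.2 hc0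
  have e0 : y 0 = ρ * Real.cos α := (Complex.norm_mul_cos_arg c).symm
  have e1 : y 1 = ρ * Real.sin α := (Complex.norm_mul_sin_arg c).symm
  set k : ℤ := ⌊α * m / π⌋ + 1
  set β := (k : ℝ) * π / m with hβ
  set ℓ : Space → ℝ := fun z => -Real.sin β * z 0 + Real.cos β * z 1 with hℓ
  have hℓ0 : ∀ z, ℓ z = 0 → w z = 0 := fun z hz => by
    refine hplane k z ?_
    have ek : (k : ℝ) * d = 2 * β := by rw [hd, hβ]; ring
    rw [ek]
    simp only [hℓ] at hz
    ext i
    fin_cases i <;> simp only [Fin.zero_eta, Fin.mk_one, Fin.reduceFinMk, rot_zero, rot_one, rot_two,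
      reflY_zero, reflY_one, reflY_two, Real.cos_two_mul, Real.sin_two_mul]
    · linear_combination (2 * Real.sin β) * hz + (2 * z 0) * Real.sin_sq_add_cos_sq β
    · linear_combination (-2 * Real.cos β) * hz
  have hb1 : α < β := by
    rw [hβ, lt_div_iff₀ hm0]
    have := Int.lt_floor_add_one (α * m / π)
    rw [div_lt_iff₀ Real.pi_pos] at this
    simp only [k]; push_cast; linarith
  have hb2 : β ≤ α + π / m := by
    have := Int.floor_le (α * m / π)
    rw [le_div_iff₀ Real.pi_pos] at this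
    rw [hβ, show α + π / m = (α * m + π) / m by field_simp, div_le_div_iff_of_pos_right hm0]
    simp only [k]; push_cast; linarith
  have hpm : π / m ≤ π / 2 := div_le_div_of_nonneg_left Real.pi_pos.le two_pos hm2
  have hpm0 : 0 < π / m := div_pos Real.pi_pos hm0
  have hdp : d = 2 * (π / m) := by rw [hd]; ring
  have hy1 : ℓ y < 0 := by
    have : ℓ y = ρ * Real.sin (α - β) := by simp only [hℓ, e0, e1, Real.sin_sub]; ring
    rw [this]
    exact mul_neg_of_pos_of_neg hρ0
      (Real.sin_neg_of_neg_of_neg_pi_lt (by linarith) (by linarith))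
  set y' := rot d y
  have hy2 : 0 < ℓ y' := by
    have : ℓ y' = ρ * Real.sin (α + d - β) := by
      simp only [hℓ, y', rot_zero, rot_one, e0, e1, Real.sin_sub, Real.sin_add, Real.cos_add]
      ring
    rw [this]
    exact mul_pos hρ0 (Real.sin_pos_of_pos_of_lt_pi (by linarith) (by linarith))
  have hwy' : w y' = w y := by simpa using hwd 1 y
  have hwr : w (reflY y) = -w y := hrefl y
  have hsep : ¬ JoinedIn {z | w z ≠ 0} y y' := fun hj =>
    not_joinedIn_of_separating (ℓ := ℓ) (by fun_prop) hℓ0 hy2 hy1 hj.symm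
  have hopp : ∀ a b, w a * w b < 0 → ¬ JoinedIn {z | w z ≠ 0} a b := fun a b hab hj => by
    rcases mul_neg_iff.1 hab with ⟨ha, hb⟩ | ⟨ha, hb⟩
    · exact (pos_of_joinedIn hF.cont hj ha).not_gt hb
    · exact (pos_of_joinedIn hF.cont hj.symm hb).not_gt ha
  have h1 : ¬ JoinedIn {z | w z ≠ 0} y (reflY y) := hopp _ _ (by
    rw [hwr]; nlinarith [mul_self_pos.2 hy])
  have h2 : ¬ JoinedIn {z | w z ≠ 0} y' (reflY y) := hopp _ _ (by
    rw [hwr, hwy']; nlinarith [mul_self_pos.2 hy])
  refine courantBound P v φ₀ e₀ μ w F hF ![y, y', reflY y] (fun i => ?_) fun i j hij => ?_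
  · fin_cases i <;> simp [hy, hwy', hwr]
  · fin_cases i <;> fin_cases j <;> first
      | exact absurd rfl hij
      | exact hsep
      | exact fun hn => hsep hn.symm
      | exact h1
      | exact fun hn => h1 hn.symm
      | exact h2
      | exact fun hn => h2 hn.symm

lemma rot_congr {a b : ℝ} (e : a = b) (f : Space → ℝ) (z : Space) :
    f (rot a z) = f (rot b z) := by rw [e]

lemma dihedral_shift (hu : Eig P v φ₀ e₀ μ u) (L : SymLevel P v φ₀ e₀ μ) {m : ℕ} (hm : 2 ≤ m)
    {q : Space} (hq : reflY q = q) (b t : ℝ) :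
    (∑ k ∈ Finset.range m, u (rot (2 * π * (b + t + k / m)) q)) =
      ∑ k ∈ Finset.range m, u (rot (2 * π * (b - t + k / m)) q) := by
  have h := (hu.comp_rot L (2 * π * b)).dihedral_zero L hm (rot (2 * π * t) q)
  rw [reflY_rot, hq] at h
  simp only [rot_rot] at h
  rw [Finset.sum_congr rfl fun (k : ℕ) _ => rot_congr (show 2 * π * (b + t + k / m) =
      2 * π * b + (2 * π * (k / m) + 2 * π * t) by ring) u q,
    Finset.sum_congr rfl fun (k : ℕ) _ => rot_congr (show 2 * π * (b - t + k / m) =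
      2 * π * b + (2 * π * (k / m) + -(2 * π * t)) by ring) u q]
  exact h

lemma exists_rot_meridian (x : Space) : ∃ q α, reflY q = q ∧ rot α q = x := by
  refine ⟨!₂[‖(⟨x 0, x 1⟩ : ℂ)‖, 0, x 2], Complex.arg ⟨x 0, x 1⟩, ?_, ?_⟩
  · ext i; fin_cases i <;> simp
  · have h0 := Complex.norm_mul_cos_arg ⟨x 0, x 1⟩
    have h1 := Complex.norm_mul_sin_arg ⟨x 0, x 1⟩
    ext i; fin_cases i <;> simp
    · linarith
    · linarith

seal rot in
/-- Every state has the rotation modes `|m| ≤ 1` only. -/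
theorem modes (hu : Eig P v φ₀ e₀ μ u) (L : SymLevel P v φ₀ e₀ μ) (x : Space) :
    ∃ A B C : ℝ, ∀ θ, u (rot θ x) = A + B * Real.cos θ + C * Real.sin θ := by
  obtain ⟨q, α, hq, hα⟩ := exists_rot_meridian x
  have hc : Continuous fun s : ℝ => u (rot (2 * π * s) q) :=
    hu.continuous.comp (continuous_rot.comp ((continuous_const.mul continuous_id).prodMk
      continuous_const))
  have hper : Function.Periodic (fun s : ℝ => u (rot (2 * π * s) q)) 1 := fun s =>
    (rot_congr (show 2 * π * (s + 1) = 2 * π * s + 2 * π by ring) u q).trans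
      (congrArg u (rot_two_pi _ q))
  obtain ⟨A, B, C, h⟩ := exists_lowest_modes hc hper fun m hm s => by
    have := hu.dihedral_shift L hm hq (s / 2) (s / 2)
    rw [Finset.sum_congr rfl fun (k : ℕ) _ => rot_congr (show 2 * π * (s / 2 + s / 2 + k / m) =
        2 * π * (s + k / m) by ring) u q,
      Finset.sum_congr rfl fun (k : ℕ) _ => rot_congr (show 2 * π * (s / 2 - s / 2 + k / m) =
        2 * π * (k / m) by ring) u q] at this
    exact this
  refine ⟨A, B * Real.cos α + C * Real.sin α, C * Real.cos α - B * Real.sin α, fun θ => ?_⟩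
  have h' := h ((θ + α) / (2 * π))
  rw [mul_div_cancel₀ _ (by positivity : (2 * π : ℝ) ≠ 0)] at h'
  rw [← hα, rot_rot, h', Real.cos_add, Real.sin_add]
  ring

/-- The value on an orbit from four values. -/
theorem orbit (hu : Eig P v φ₀ e₀ μ u) (L : SymLevel P v φ₀ e₀ μ) (θ : ℝ) (x : Space) :
    u (rot θ x) = (u x + u (rot π x)) / 2 + (u x - u (rot π x)) / 2 * Real.cos θ +
      (u (rot (π / 2) x) - (u x + u (rot π x)) / 2) * Real.sin θ := by
  obtain ⟨A, B, C, h⟩ := hu.modes L x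
  have h0 := h 0
  rw [rot_zero_angle, Real.cos_zero, Real.sin_zero] at h0
  have h1 := h π
  rw [Real.cos_pi, Real.sin_pi] at h1
  have h2 := h (π / 2)
  rw [Real.cos_pi_div_two, Real.sin_pi_div_two] at h2
  rw [h θ, h1, h2, h0]
  ring

end Eig

end Vale.Agent.P363.Ext
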